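import Vale.Agent.P267S72.Small
import Vale.Agent.P263.T0.Dual
import Mathlib.LinearAlgebra.Dimension.Localization
import Mathlib.RingTheory.TensorProduct.Basic

/-!
# P267 bridge: real cocycles and Mathlib's singular homology

The real singular cocycles map onto the linear forms on Mathlib's singular homology, and the
kernel consists of the coboundaries.
-/

open CategoryTheory Limits Simplicial

namespace Vale.Agent.P267S72

open Vale.Agent.P246.T
open Vale.Agent.P263.T0 (pair_surjective pair_eq_zero_iff injective_gr)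

variable (R : Type) [CommRing R] [Algebra R ℝ] (X : Type) [TopologicalSpace X]

/-- Mathlib's singular homology with coefficients in `R`. -/
noncomputable abbrev HS (n : ℕ) : ModuleCat.{0} R :=
  ((AlgebraicTopology.singularHomologyFunctor (ModuleCat.{0} R) n).obj (ModuleCat.of R R)).obj
    (TopCat.of X)

/-- The singular simplicial set. -/
noncomputable abbrev SX : SSet.{0} := TopCat.toSSet.obj (TopCat.of X)

/-- Mathlib's singular chain complex. -/
noncomputable abbrev KX : ChainComplex (ModuleCat.{0} R) ℕ :=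
  (SX X).chainComplex (ModuleCat.of R R)

/-- The reals as a module. -/
abbrev JR : ModuleCat.{0} R := ModuleCat.of R ℝ

/-- Singular simplices as continuous maps. -/
noncomputable def toC {n : ℕ} : (SX X) _⦋n⦌ ≃ C(Dl (n + 1), X) :=
  TopCat.toSSetObjEquiv (TopCat.of X) (Opposite.op (SimplexCategory.mk n))

theorem toC_δ {n : ℕ} (x : (SX X) _⦋n + 1⦌) (i : Fin (n + 2)) :
    toC X ((SX X).δ i x) = (toC X x).comp (face (n + 1) i) := rfl

variable {X}

/-- The map `1 ↦ a`. -/
noncomputable def sp (a : ℝ) : ModuleCat.of R R ⟶ JR R :=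
  ModuleCat.ofHom (LinearMap.toSpanSingleton R ℝ a)

theorem sp_one (a : ℝ) : (sp R a).hom (1 : R) = a := one_smul R a

theorem sp_ext {f g : ModuleCat.of R R ⟶ JR R} (h : f.hom (1 : R) = g.hom (1 : R)) : f = g := by
  ext
  exact h

/-- The linear form on chains of a cochain. -/
noncomputable def ev {n : ℕ} (c : C(Dl (n + 1), X) → ℝ) : (KX R X).X n ⟶ JR R :=
  ((SX X).isColimitChainComplexXCofan (ModuleCat.of R R) n).desc
    (Cofan.mk _ fun x => sp R (c (toC X x)))

theorem ι_ev {n : ℕ} (c : C(Dl (n + 1), X) → ℝ) (x : (SX X) _⦋n⦌) :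
    (SX X).ιChainComplex x ≫ ev R c = sp R (c (toC X x)) :=
  ((SX X).isColimitChainComplexXCofan (ModuleCat.of R R) n).fac _ ⟨x⟩

/-- The cochain of a linear form on chains. -/
noncomputable def unev {n : ℕ} (l : (KX R X).X n ⟶ JR R) (σ : C(Dl (n + 1), X)) : ℝ :=
  ((SX X).ιChainComplex ((toC X).symm σ) ≫ l).hom (1 : R)

theorem ev_unev {n : ℕ} (l : (KX R X).X n ⟶ JR R) : ev R (unev R l) = l := by
  refine SSet.chainComplex_hom_ext fun x => ?_
  rw [ι_ev]
  refine sp_ext R ?_
  rw [sp_one, unev, Equiv.symm_apply_apply]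

theorem unev_ev {n : ℕ} (c : C(Dl (n + 1), X) → ℝ) : unev R (ev R c) = c := by
  funext σ
  rw [unev, ι_ev, sp_one, Equiv.apply_symm_apply]

theorem ev_inj {n : ℕ} {c c' : C(Dl (n + 1), X) → ℝ} (h : ev R c = ev R c') : c = c' := by
  rw [← unev_ev R c, h, unev_ev]

theorem ev_zero {n : ℕ} : ev R (fun _ : C(Dl (n + 1), X) => (0 : ℝ)) = 0 := by
  refine SSet.chainComplex_hom_ext fun x => ?_
  rw [ι_ev, comp_zero]
  exact sp_ext R (sp_one R 0)

theorem d_ev {n : ℕ} (c : C(Dl (n + 1), X) → ℝ) :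
    (KX R X).d (n + 1) n ≫ ev R c = ev R (cobd c) := by
  refine SSet.chainComplex_hom_ext fun x => ?_
  rw [SSet.ιChainComplex_d_assoc, ι_ev, Preadditive.sum_comp]
  refine sp_ext R ?_
  rw [sp_one, cobd, ModuleCat.hom_sum, LinearMap.sum_apply]
  refine Finset.sum_congr rfl fun i _ => ?_
  rw [Preadditive.zsmul_comp, ι_ev, toC_δ]
  show (-1 : ℤ) ^ (i : ℕ) • (sp R _).hom (1 : R) = _
  rw [sp_one]

theorem d_ev_zero {n : ℕ} {c : C(Dl (n + 1), X) → ℝ} (h : ∀ τ, cobd c τ = 0) :
    (KX R X).d (n + 1) n ≫ ev R c = 0 := by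
  rw [d_ev, show cobd c = fun _ => 0 from funext h, ev_zero]

/-- Multiplication by a real number. -/
noncomputable def mu (r : ℝ) : JR R ⟶ JR R := ModuleCat.ofHom (LinearMap.mul R ℝ r)

theorem pair_comp {C : Type*} [Category C] [Abelian C] {J J' : C} (K : ChainComplex C ℕ) {n : ℕ}
    (l : K.X n ⟶ J) (h : K.d (n + 1) n ≫ l = 0) (g : J ⟶ J') (h' : K.d (n + 1) n ≫ l ≫ g = 0) :
    P263.T0.pair K (l ≫ g) h' = P263.T0.pair K l h ≫ g := by
  rw [P263.T0.pair, P263.T0.pair, Category.assoc]
  congr 1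
  rw [← cancel_epi (K.pOpcycles n), K.p_descOpcycles, K.p_descOpcycles_assoc]

theorem pair_add {C : Type*} [Category C] [Abelian C] {J : C} (K : ChainComplex C ℕ) {n : ℕ}
    (l l' : K.X n ⟶ J) (h : K.d (n + 1) n ≫ l = 0) (h' : K.d (n + 1) n ≫ l' = 0)
    (h'' : K.d (n + 1) n ≫ (l + l') = 0) : P263.T0.pair K (l + l') h'' = P263.T0.pair K l h + P263.T0.pair K l' h' := by
  rw [P263.T0.pair, P263.T0.pair, P263.T0.pair, ← Preadditive.comp_add]
  congr 1
  rw [← cancel_epi (K.pOpcycles n), K.p_descOpcycles, Preadditive.comp_add, K.p_descOpcycles,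
    K.p_descOpcycles]

theorem ev_add {n : ℕ} (c c' : C(Dl (n + 1), X) → ℝ) : ev R (c + c') = ev R c + ev R c' := by
  refine SSet.chainComplex_hom_ext fun x => ?_
  rw [Preadditive.comp_add, ι_ev, ι_ev, ι_ev]
  refine sp_ext R ?_
  show _ = (sp R _).hom (1 : R) + (sp R _).hom (1 : R)
  rw [sp_one, sp_one, sp_one, Pi.add_apply]

theorem ev_smul {n : ℕ} (r : ℝ) (c : C(Dl (n + 1), X) → ℝ) : ev R (r • c) = ev R c ≫ mu R r := by
  refine SSet.chainComplex_hom_ext fun x => ?_
  rw [← Category.assoc, ι_ev, ι_ev]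
  refine sp_ext R ?_
  show _ = r * (sp R _).hom (1 : R)
  rw [sp_one, sp_one, Pi.smul_apply, smul_eq_mul]

variable (X) in
/-- The coboundary as a linear map. -/
noncomputable def cb (n : ℕ) : (C(Dl (n + 1), X) → ℝ) →ₗ[ℝ] (C(Dl (n + 2), X) → ℝ) where
  toFun := cobd
  map_add' c c' := by
    funext τ
    simp only [cobd, Pi.add_apply, smul_add, Finset.sum_add_distrib]
  map_smul' r c := by
    funext τ
    simp only [cobd, Pi.smul_apply, RingHom.id_apply, Finset.smul_sum, smul_comm r]

theorem cb_apply {n : ℕ} (c : C(Dl (n + 1), X) → ℝ) (τ : C(Dl (n + 2), X)) :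
    cb X n c τ = ∑ i : Fin (n + 2), (-1 : ℤ) ^ (i : ℕ) • c (τ.comp (face (n + 1) i)) := rfl

variable (X) in
/-- The evaluation of real cocycles on homology classes. -/
noncomputable def evH (n : ℕ) : LinearMap.ker (cb X n) →ₗ[ℝ] (HS R X n →ₗ[R] ℝ) where
  toFun c := (P263.T0.pair (KX R X) (ev R c.1) (d_ev_zero R (congrFun c.2))).hom
  map_add' c c' := by
    have h := pair_add (KX R X) (ev R c.1) (ev R c'.1) (d_ev_zero R (congrFun c.2))
      (d_ev_zero R (congrFun c'.2)) (by rw [← ev_add]; exact d_ev_zero R (congrFun (c + c').2))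
    have h2 : P263.T0.pair (KX R X) (ev R (c + c').1) (d_ev_zero R (congrFun (c + c').2)) =
        P263.T0.pair (KX R X) (ev R c.1) (d_ev_zero R (congrFun c.2)) +
          P263.T0.pair (KX R X) (ev R c'.1) (d_ev_zero R (congrFun c'.2)) := by
      rw [← h]
      congr 1
      exact ev_add R c.1 c'.1
    rw [h2]
    rfl
  map_smul' r c := by
    have h := pair_comp (KX R X) (ev R c.1) (d_ev_zero R (congrFun c.2)) (mu R r)
      (by rw [← ev_smul]; exact d_ev_zero R (congrFun (r • c).2))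
    have h2 : P263.T0.pair (KX R X) (ev R (r • c).1) (d_ev_zero R (congrFun (r • c).2)) =
        P263.T0.pair (KX R X) (ev R c.1) (d_ev_zero R (congrFun c.2)) ≫ mu R r := by
      rw [← h]
      congr 1
      exact ev_smul R r c.1
    rw [h2]
    rfl

theorem evH_surjective [Injective (JR R)] (n : ℕ) : Function.Surjective (evH R X n) := by
  intro m
  obtain ⟨l, h, hl⟩ := pair_surjective (J := JR R) (KX R X) (n := n) (ModuleCat.ofHom m)
  have e : ev R (unev R l) = l := ev_unev R l
  have hc : cb X n (unev R l) = 0 := by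
    apply ev_inj R
    show ev R (cobd (unev R l)) = ev R (fun _ => 0)
    rw [← d_ev, e, h, ev_zero]
  refine ⟨⟨unev R l, hc⟩, ?_⟩
  have h2 : P263.T0.pair (KX R X) (ev R (unev R l)) (d_ev_zero R (congrFun hc)) = ModuleCat.ofHom m := by
    refine Eq.trans ?_ hl
    congr 1
  exact congrArg ModuleCat.Hom.hom h2

theorem evH_eq_zero_iff [Injective (JR R)] {n : ℕ} (c : LinearMap.ker (cb X (n + 1))) :
    evH R X (n + 1) c = 0 ↔ ∃ b, cb X n b = c.1 := by
  have h0 : evH R X (n + 1) c = 0 ↔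
      P263.T0.pair (KX R X) (ev R c.1) (d_ev_zero R (congrFun c.2)) = 0 := by
    constructor
    · intro h
      exact ModuleCat.hom_ext h
    · intro h
      exact congrArg ModuleCat.Hom.hom h
  rw [h0, pair_eq_zero_iff]
  constructor
  · rintro ⟨m, hm⟩
    refine ⟨unev R m, ev_inj R ?_⟩
    show ev R (cobd (unev R m)) = _
    rw [hm, ← d_ev, ev_unev]
  · rintro ⟨b, hb⟩
    exact ⟨ev R b, by rw [d_ev, ← hb]; rfl⟩

theorem injective_int : Injective (JR ℤ) :=
  Module.injective_object_of_injective_module (inj := (Module.Baer.of_divisible ℝ).injective)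

theorem injective_real : Injective (JR ℝ) := injective_gr ℝ

/-- The linear forms with real values on a module have a basis with `n` elements iff the rank of
the module is `n`. -/
theorem basis_iff_rank [IsDomain R] [FaithfulSMul R ℝ] (H : Type) [AddCommGroup H] [Module R H]
    (n : ℕ) : Nonempty (Module.Basis (Fin n) ℝ (H →ₗ[R] ℝ)) ↔ Module.rank R H = n := by
  have e : (H →ₗ[R] ℝ) ≃ₗ[ℝ] Module.Dual ℝ (TensorProduct R ℝ H) :=
    LinearMap.liftBaseChangeEquiv ℝ
  have hr : Module.rank ℝ (TensorProduct R ℝ H) = Module.rank R H :=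
    (TensorProduct.isBaseChange R H ℝ).rank_eq
  rw [← hr]
  constructor
  · rintro ⟨b⟩
    have h1 : Module.Finite ℝ (Module.Dual ℝ (TensorProduct R ℝ H)) :=
      Module.Finite.of_basis (b.map e)
    have h2 : Module.Finite ℝ (TensorProduct R ℝ H) := (Module.finite_dual_iff ℝ).1 h1
    have h3 := Module.finrank_eq_card_basis (b.map e)
    rw [Subspace.dual_finrank_eq, Fintype.card_fin] at h3
    rw [← Module.finrank_eq_rank, h3]
  · intro h
    have h2 : Module.Finite ℝ (TensorProduct R ℝ H) :=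
      Module.finite_of_rank_eq_nat h
    have h3 : Module.finrank ℝ (Module.Dual ℝ (TensorProduct R ℝ H)) = n := by
      rw [Subspace.dual_finrank_eq]
      exact Module.finrank_eq_of_rank_eq h
    exact ⟨(Module.finBasisOfFinrankEq ℝ _ h3).map e.symm⟩

end Vale.Agent.P267S72
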