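import Vale.Agent.P267S72.Dual

/-!
# P267 bridge: the cohomology of small cochains is dual to singular homology
-/

open CategoryTheory

namespace Vale.Agent.P267S72

open Vale.Agent.P246.T

/-- Two quotients of a module with the same kernel are isomorphic. -/
theorem equiv_of_surj {Z P Q : Type*} [AddCommGroup Z] [Module ℝ Z] [AddCommGroup P] [Module ℝ P]
    [AddCommGroup Q] [Module ℝ Q] (p : Z →ₗ[ℝ] P) (q : Z →ₗ[ℝ] Q) (hp : Function.Surjective p)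
    (hq : Function.Surjective q) (h : ∀ z, p z = 0 ↔ q z = 0) : Nonempty (P ≃ₗ[ℝ] Q) :=
  ⟨(p.quotKerEquivOfSurjective hp).symm.trans
    ((Submodule.quotEquivOfEq _ _ (Submodule.ext h)).trans (q.quotKerEquivOfSurjective hq))⟩

variable (R : Type) [CommRing R] [Algebra R ℝ] {X : Type} [TopologicalSpace X] {ι : Type*}
  {U : ι → Set X}

/-- Let `A₀ → A₁ → A₂` be the complex of small cochains in the degrees `k, k + 1, k + 2`, given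
with the restriction maps from all cochains. Its cohomology is dual to the singular homology. -/
theorem coh_equiv [Injective (JR R)] (hU : ∀ j, IsOpen (U j)) (hc : ∀ x, ∃ j, x ∈ U j) (k : ℕ)
    {A₀ A₁ A₂ : Type*} [AddCommGroup A₀] [Module ℝ A₀] [AddCommGroup A₁] [Module ℝ A₁]
    [AddCommGroup A₂] [Module ℝ A₂] (d₀ : A₀ →ₗ[ℝ] A₁) (d₁ : A₁ →ₗ[ℝ] A₂)
    (r₀ : (C(Dl (k + 1), X) → ℝ) →ₗ[ℝ] A₀) (r₁ : (C(Dl (k + 2), X) → ℝ) →ₗ[ℝ] A₁)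
    (r₂ : (C(Dl (k + 3), X) → ℝ) →ₗ[ℝ] A₂)
    (s₀ : Function.Surjective r₀) (s₁ : Function.Surjective r₁)
    (k₁ : ∀ φ, r₁ φ = 0 ↔ ∀ σ ∈ Sml U (k + 1), φ σ = 0)
    (k₂ : ∀ φ, r₂ φ = 0 ↔ ∀ σ ∈ Sml U (k + 2), φ σ = 0)
    (c₀ : ∀ φ, d₀ (r₀ φ) = r₁ (cb X k φ)) (c₁ : ∀ φ, d₁ (r₁ φ) = r₂ (cb X (k + 1) φ)) :
    Nonempty ((LinearMap.ker d₁ ⧸ (LinearMap.range d₀).submoduleOf (LinearMap.ker d₁)) ≃ₗ[ℝ]
      (HS R X (k + 1) →ₗ[R] ℝ)) := by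
  let ρ : LinearMap.ker (cb X (k + 1)) →ₗ[ℝ] LinearMap.ker d₁ :=
    r₁.restrict fun φ hφ => by
      rw [LinearMap.mem_ker] at hφ ⊢
      rw [c₁, hφ, map_zero]
  have hρ : Function.Surjective ρ := by
    rintro ⟨a, ha⟩
    obtain ⟨φ, rfl⟩ := s₁ a
    rw [LinearMap.mem_ker, c₁, k₂] at ha
    obtain ⟨ψ, h1, h2⟩ := small_ext hU hc φ ha
    refine ⟨⟨ψ, funext h1⟩, Subtype.ext ?_⟩
    show r₁ ψ = r₁ φ
    rw [← sub_eq_zero, ← map_sub, k₁]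
    intro σ hσ
    rw [Pi.sub_apply, h2 σ hσ, sub_self]
  refine equiv_of_surj (((LinearMap.range d₀).submoduleOf (LinearMap.ker d₁)).mkQ ∘ₗ ρ)
    (evH R X (k + 1)) ((Submodule.mkQ_surjective _).comp hρ) (evH_surjective R _) fun z => ?_
  rw [evH_eq_zero_iff, LinearMap.comp_apply, Submodule.mkQ_apply, Submodule.Quotient.mk_eq_zero]
  show (∃ a, d₀ a = r₁ z.1) ↔ _
  constructor
  · rintro ⟨a, ha⟩
    obtain ⟨b, rfl⟩ := s₀ a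
    rw [c₀, eq_comm, ← sub_eq_zero, ← map_sub, k₁] at ha
    have hbb : cb X (k + 1) (cb X k b) = 0 := by
      funext τ
      show cobd (cobd b) τ = 0
      rw [← val_single (cobd (cobd b)) τ, ← val_bd, ← val_bd, SD.bd_bd, map_zero]
    have hz : cb X (k + 1) (z.1 - cb X k b) = 0 := by
      rw [map_sub, hbb, sub_zero]
      exact z.2
    obtain ⟨b', hb'⟩ := small_zero hU hc (z.1 - cb X k b) (congrFun hz) ha
    refine ⟨b' + b, ?_⟩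
    rw [map_add, show cb X k b' = z.1 - cb X k b from funext hb', sub_add_cancel]
  · rintro ⟨b, hb⟩
    exact ⟨r₀ b, by rw [c₀, hb]⟩

/-- The cohomology of small cochains has a basis with `n` elements iff the integral singular
homology has rank `n`. -/
theorem coh_basis_iff (hU : ∀ j, IsOpen (U j)) (hc : ∀ x, ∃ j, x ∈ U j) (k : ℕ)
    {A₀ A₁ A₂ : Type*} [AddCommGroup A₀] [Module ℝ A₀] [AddCommGroup A₁] [Module ℝ A₁]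
    [AddCommGroup A₂] [Module ℝ A₂] (d₀ : A₀ →ₗ[ℝ] A₁) (d₁ : A₁ →ₗ[ℝ] A₂)
    (r₀ : (C(Dl (k + 1), X) → ℝ) →ₗ[ℝ] A₀) (r₁ : (C(Dl (k + 2), X) → ℝ) →ₗ[ℝ] A₁)
    (r₂ : (C(Dl (k + 3), X) → ℝ) →ₗ[ℝ] A₂)
    (s₀ : Function.Surjective r₀) (s₁ : Function.Surjective r₁)
    (k₁ : ∀ φ, r₁ φ = 0 ↔ ∀ σ ∈ Sml U (k + 1), φ σ = 0)
    (k₂ : ∀ φ, r₂ φ = 0 ↔ ∀ σ ∈ Sml U (k + 2), φ σ = 0)
    (c₀ : ∀ φ, d₀ (r₀ φ) = r₁ (cb X k φ)) (c₁ : ∀ φ, d₁ (r₁ φ) = r₂ (cb X (k + 1) φ)) (n : ℕ) :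
    Nonempty (Module.Basis (Fin n) ℝ
      (LinearMap.ker d₁ ⧸ (LinearMap.range d₀).submoduleOf (LinearMap.ker d₁))) ↔
      Module.rank ℤ (HS ℤ X (k + 1)) = n := by
  have := injective_int
  obtain ⟨e⟩ := coh_equiv ℤ hU hc k d₀ d₁ r₀ r₁ r₂ s₀ s₁ k₁ k₂ c₀ c₁
  rw [← basis_iff_rank ℤ]
  exact ⟨fun ⟨b⟩ => ⟨b.map e⟩, fun ⟨b⟩ => ⟨b.map e.symm⟩⟩

end Vale.Agent.P267S72
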