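import Vale.Agent.P267S72.Pre
import Vale.Agent.P267.H175.RBetti
import Vale.Agent.P267.H770.Final.Br4

/-!
# P267 bridge: the de Rham theorem for the first two Betti numbers of a compact surface
-/

open scoped Manifold ContDiff Topology
open Vale.Agent.P272.K Set TopologicalSpace

namespace Vale.Agent.P267S72

open Vale.Agent.P267 Vale.Agent.P267.H175

/-- Two good complexes on the same cover have the same cohomology in the degrees `1` and `2`. -/
theorem good_equiv {X : Type} [TopologicalSpace X] {ι : Type} {U : ι → Opens X}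
    {F G : FormPre.{0, 0, 0} X U} (hF : F.Good) (hG : G.Good) {k : ℕ} (hk : k ≤ 1) :
    Nonempty (F.Coh k ≃ₗ[ℝ] G.Coh k) := by
  obtain rfl | rfl : k = 0 ∨ k = 1 := by omega
  · exact equiv_of_surj hF.cl1 hG.cl1 hF.cl1_surjective hG.cl1_surjective fun z => by
      rw [hF.cl1_eq_zero_iff, hG.cl1_eq_zero_iff]
  · exact equiv_of_surj hF.cl2 hG.cl2 hF.cl2_surjective hG.cl2_surjective fun z => by
      rw [hF.cl2_eq_zero_iff, hG.cl2_eq_zero_iff]

/-- The de Rham theorem, working form. -/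
theorem betti_iff_rank {X : Type} [TopologicalSpace X] [T2Space X] [CompactSpace X]
    [ChartedSpace (Cm 2) X] [IsManifold 𝓘(ℝ, Cm 2) ∞ X] {k : ℕ} (hk : k ≤ 1) (n : ℕ) :
    P267.BettiSucc X k n ↔ Module.rank ℤ (HS ℤ X (k + 1)) = n := by
  obtain ⟨m, U, f, hf, hU⟩ := exists_goodCov (E := Cm 2) (X := X)
  have hc : ∀ x, ∃ j, x ∈ U j := by
    intro x
    obtain ⟨j, hj⟩ := f.exists_pos_of_mem (mem_univ x)
    exact ⟨j, hf j (subset_tsupport _ hj.ne')⟩
  obtain ⟨e⟩ := good_equiv (formPre_good f hf hU) (singPre_good hU hc) hk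
  rw [bettiSucc_iff f hf, ← singPre_basis_iff hc]
  exact ⟨fun ⟨b⟩ => ⟨b.map e⟩, fun ⟨b⟩ => ⟨b.map e.symm⟩⟩

section

variable {X : Type} [TopologicalSpace X] [ChartedSpace (ℂ × ℂ) X] [IsManifold 𝓘(ℂ, ℂ × ℂ) ω X]

attribute [local instance] Final.cs

theorem betti_old {k n : ℕ} (h : P267.BettiSucc X k n) : Final.BettiSucc X k n := by
  rw [← H998.bettiSucc_iff] at h
  obtain ⟨a, ha, hc⟩ := h
  refine ⟨fun i => Final.toOld (a i),
    fun i => ⟨Final.smooth_old (ha i).1, Final.closed_old (ha i).1 (ha i).2⟩, ?_⟩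
  intro c hcs hcc
  have h1 := hc (Final.toNew c) (Final.smooth_new hcs) (Final.closed_new hcs hcc)
  have h2 : ∀ t : Fin n → ℝ, (∃ b : Final.RForm k X, Final.IsSmooth b ∧
      Final.IsComb c b t fun i => Final.toOld (a i)) ↔
      ∃ d, ExactForm d ∧ H998.IsComb (Final.toNew c) d t a := by
    intro t
    have h3 := Final.comb_iff (c := Final.toNew c) (t := t) (a := fun i => Final.toOld (a i))
    simp only [Final.toNew_toOld, Final.toOld_toNew] at h3
    exact h3
  simpa only [h2] using h1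

/-- **The de Rham theorem** for the Betti numbers `b₁`, `b₂` of a compact complex surface. -/
theorem deRham [T2Space X] [CompactSpace X] {k : ℕ} (hk : k ≤ 1) (n : ℕ) :
    Final.BettiSucc X k n ↔ Module.rank ℤ (HS ℤ X (k + 1)) = n := by
  have : IsManifold 𝓘(ℂ, Cm 2) ω X := Final.isManifold_cs
  have : IsManifold 𝓘(ℝ, Cm 2) ∞ X := FL.isManifold_real' (X := X) ∞
  rw [← betti_iff_rank hk]
  exact ⟨Final.betti_new, betti_old⟩

/-- The first two Betti numbers of a compact complex surface are finite. -/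
theorem exists_rank [T2Space X] [CompactSpace X] {k : ℕ} (hk : k ≤ 1) :
    ∃ n : ℕ, Module.rank ℤ (HS ℤ X (k + 1)) = n := by
  have : IsManifold 𝓘(ℂ, Cm 2) ω X := Final.isManifold_cs
  have : IsManifold 𝓘(ℝ, Cm 2) ∞ X := FL.isManifold_real' (X := X) ∞
  obtain rfl | rfl : k = 0 ∨ k = 1 := by omega
  · obtain ⟨n, hn⟩ := exists_betti1 X
    exact ⟨n, (betti_iff_rank hk n).1 hn⟩
  · obtain ⟨n, hn⟩ := exists_betti2 X
    exact ⟨n, (betti_iff_rank hk n).1 hn⟩

end

/-- The GSS conjecture with the Betti numbers of singular homology follows from the form with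
de Rham Betti numbers. -/
theorem gss_singular (h : Final.GSSConjecture) (X : Type) [TopologicalSpace X] [T2Space X]
    [CompactSpace X] [ConnectedSpace X] [ChartedSpace (ℂ × ℂ) X] [IsManifold 𝓘(ℂ, ℂ × ℂ) ω X]
    (h1 : Module.rank ℤ (HS ℤ X 1) = 1) (h2 : 0 < Module.rank ℤ (HS ℤ X 2))
    (hk : Final.KodairaNegInf X) (hm : Final.Minimal X) : Final.HasGSS X := by
  obtain ⟨n, hn⟩ := exists_rank (X := X) (k := 1) le_rfl
  refine h X n ⟨(deRham (by omega) 1).2 (by exact_mod_cast h1), (deRham le_rfl n).2 hn, ?_, hk, hm⟩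
  have h3 : (0 : Cardinal) < n := hn ▸ h2
  exact_mod_cast h3

end Vale.Agent.P267S72
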