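import Vale.Agent.P267S72.St
import Vale.Agent.P267S72.DeRham

/-!
# P267 bridge: the statement with singular Betti numbers from the one with de Rham Betti numbers
-/

namespace Vale.Agent.P267S72

open Vale.Agent.P267

theorem statement_of (h : Final.GSSConjecture) : Statement := by
  intro X _ _ _ _ _ _
  refine ⟨fun h1 hk hm h2 => gss_singular h X h1 h2 hk hm, ?_, ?_⟩
  · obtain ⟨n, hn⟩ := exists_rank (X := X) (k := 0) (by omega)
    exact ⟨n, hn, (deRham (by omega) n).2 hn⟩
  · obtain ⟨n, hn⟩ := exists_rank (X := X) (k := 1) le_rfl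
    exact ⟨n, hn, (deRham le_rfl n).2 hn⟩

end Vale.Agent.P267S72
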