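import Vale.Agent.P267S72.Norm3
import Vale.Agent.P267W33.Main

/-!
# P267 bridge: singular Betti numbers and minimality by the normal bundle
-/

open scoped Manifold ContDiff Topology

namespace Vale.Agent.P267S72

open Vale.Agent.P267

attribute [local instance] Final.cs Final.isManifold_cs

theorem gss_literal (h : P267.GSSConjecture) (X : Type) [TopologicalSpace X] [T2Space X]
    [CompactSpace X] [ConnectedSpace X] [ChartedSpace (ℂ × ℂ) X] [IsManifold 𝓘(ℂ, ℂ × ℂ) ω X]
    (h1 : P267W33.betti X 1 = 1) (hk : Final.KodairaNegInf X) (hm : IsMinimal X)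
    (h2 : 0 < P267W33.betti X 2) : Final.HasGSS X := by
  obtain ⟨⟨n, hn⟩, h3⟩ := P267W33.deRham (X := X) (k := 1) le_rfl
  refine Final.hasGSS_old (h X n ⟨Final.betti_new
    (((P267W33.deRham (X := X) (k := 0) zero_le_one).2 1).1 (by simpa using h1)),
    Final.betti_new ((h3 n).1 hn), ?_, Final.kod_new hk, minimal_of hm⟩)
  have h4 : (0 : Cardinal) < n := hn ▸ h2
  exact_mod_cast h4

end Vale.Agent.P267S72
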