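import Vale.Agent.P267.H815.Add
import Vale.Agent.P267.H815.Pole
import Vale.Agent.P267.H823.PL6
import Vale.Agent.P267.H205.P2d
import Vale.Agent.P247.H558.VF.Inj

/-!
# P267 bridge: the self-intersection number of a smooth rational curve is the degree of `𝒪(D)|D`
-/

open scoped Manifold ContDiff Topology
open Set Filter

namespace Vale.Agent.P267S72

open Vale.Agent.P267 Vale.Agent.P267.FL Vale.Agent.P267.H205.P1 Vale.Agent.P267.H815

variable {X : Type} [TopologicalSpace X] [ChartedSpace C2 X] [IsManifold 𝓘(ℂ, C2) ω X]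
variable {ι : Type} [Fintype ι] [DecidableEq ι] {D : EffDiv X} (B : H451.DivLB D ι)

/-- The self-intersection number is the degree of the restriction of the line bundle. -/
theorem deg_eq [CompactSpace X] [T2Space X]
    (hD : ∀ x, ∀ y ∈ D.U x, D.f x y = 0 → mfderiv 𝓘(ℂ, C2) 𝓘(ℂ) (D.f x) y ≠ 0)
    (φ : P1Map X) (hi : Function.Injective φ.f₀) (hs : D.supp = φ.image) {d : ℝ}
    (h : D.SelfInt d) : ((degOn B.L B.hol.smooth φ : ℤ) : ℂ) = d := by
  have hpi : (Real.pi : ℂ) ≠ 0 := Complex.ofReal_ne_zero.2 Real.pi_ne_zero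
  have h1 : RR.isec B.L B.L = d := by
    rw [B.selfInt_iff] at h
    change FL.intX ((B.L.chern B.a).wedge (B.L.chern B.a)) = _ at h
    rw [intX_chern_chern B.hol B.s_reg B.s_sec B.s_hol (dense_ne B)] at h
    rw [RR.isec, h]
    push_cast
    field_simp
  have hz : ∀ x, ‖B.s x‖ ^ 2 = 0 ↔ x ∈ φ.image := by
    intro x
    rw [← hs, ← B.s_eq_zero_iff]
    simp
  have h3 := (H823.PL.poincare_lelong (divLB_rep B).isNormFn (f := φ.f₀) (S := {φ.f₁ 0})
    ⟨φ.holo₀, hi, countable_singleton _, fun t => (hz _).2 (Or.inl ⟨t, rfl⟩),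
      fun x hx => (hz x).1 hx⟩
    (fun p hp => ⟨D.U p, D.f p, _, D.mem p, (divLB_rep B).locRep p,
      hD p p (D.mem p) (by
        have h4 : p ∈ D.supp := by rw [hs]; exact (hz p).1 hp
        exact h4)⟩)
    B.L.curv_smooth B.L.curv_closed isClosed_closure.isCompact).2
  rw [(H205.P1.integral_pbC_curv B.L B.hol.smooth φ).2] at h3
  rw [isec_eq B.hol B.s_reg B.s_sec B.s_hol (dense_ne B) B.L, pn, h3] at h1
  rw [← h1]
  field_simp

theorem db_comp_loc {V : Type*} [NormedAddCommGroup V] [NormedSpace ℂ V] {f : ℂ → X} {z : ℂ}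
    (hf : MDifferentiable 𝓘(ℂ) 𝓘(ℂ, C2) f) {s : X → V}
    (hs : DifferentiableAt ℝ (fun w => s ((chartAt C2 (f z)).symm w)) (chartAt C2 (f z) (f z))) :
    db (fun z => s (f z)) z = pulla (dbar0 0 s) f z := by
  set e := chartAt C2 (f z) with hed
  have he : e ∈ atlas C2 X := chart_mem_atlas C2 _
  have hz : f z ∈ e.source := mem_chart_source C2 _
  have hU : f ⁻¹' e.source ∈ 𝓝 z :=
    (hf z).continuousAt.preimage_mem_nhds (e.open_source.mem_nhds hz)
  have h1 : (fun y => s (f y)) =ᶠ[𝓝 z] fun y => loc0 0 e s (e (f y)) := by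
    filter_upwards [hU] with y hy
    rw [loc0_source hy]
    simp
  have h2 : loc0 0 e s = fun w => s (e.symm w) := by
    funext w
    simp [loc0]
  have hsm : DifferentiableAt ℝ (loc0 0 e s) (e (f z)) := by
    rw [h2]
    exact hs
  rw [db_congr h1, db_comp_curve hsm (curve_diff (hf z) he hz), pulla_eq (hf z) he hz]
  refine Finset.sum_congr rfl fun i _ => ?_
  rw [loc1_dbar0 he (e.map_source hz) hsm]

theorem v_smooth {f : ℂ → X} (hf : MDifferentiable 𝓘(ℂ) 𝓘(ℂ, C2) f) {x : X} {z : ℂ}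
    (hz : f z ∈ D.U x) : ContDiffAt ℝ ∞ (fun t => B.v x (f t)) z := by
  set e := chartAt C2 (f z) with hed
  have he : e ∈ atlas C2 X := chart_mem_atlas C2 _
  have hze : f z ∈ e.source := mem_chart_source C2 _
  have hopen : IsOpen (f ⁻¹' e.source) := e.open_source.preimage hf.continuous
  have hF : DifferentiableOn ℂ (fun y => e (f y)) (f ⁻¹' e.source) := fun y hy =>
    (curve_diff (hf y) he hy).differentiableWithinAt
  have hFc : ContDiffAt ℂ ∞ (fun y => e (f y)) z :=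
    (hF.contDiffOn hopen).contDiffAt (hopen.mem_nhds hze)
  have h1 := (B.v_reg x (f z) hz e he hze).comp z (hFc.restrict_scalars ℝ)
  refine h1.congr_of_eventuallyEq ?_
  filter_upwards [hopen.mem_nhds hze] with t ht
  show B.v x (f t) = B.v x (e.symm (e (f t)))
  rw [e.left_inv ht]

/-- The coefficients of a holomorphic section of the restricted bundle in the local frames. -/
theorem exists_coef {f : ℂ → X} (hf : MDifferentiable 𝓘(ℂ) 𝓘(ℂ, C2) f)
    {s : ℂ → EuclideanSpace ℂ ι} (hs : (pullC B.L B.hol.smooth hf).IsSec s)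
    (h0 : ∀ z, (pullC B.L B.hol.smooth hf).D s z = 0) (x : X) :
    ∃ c : ℂ → ℂ, DifferentiableOn ℂ c (f ⁻¹' D.U x) ∧
      ∀ z ∈ f ⁻¹' D.U x, s z = c z • B.v x (f z) := by
  refine (pullC B.L B.hol.smooth hf).exists_quot ((D.isOpen x).preimage hf.continuous)
    hs.1.contDiffOn (fun z hz => (v_smooth B hf hz).contDiffWithinAt) (fun z _ => hs.2 z)
    (fun z hz => B.v_sec x _ hz) (fun z hz => B.v_ne x _ hz) (fun z _ => h0 z) fun z hz => ?_
  unfold LC.D
  rw [db_comp_loc hf ((B.v_reg x (f z) hz _ (chart_mem_atlas C2 _)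
    (mem_chart_source C2 _)).differentiableAt (by simp))]
  change LB.actL (B.L.P (f z)) (pulla (dbar0 0 (B.v x)) f z) + pulla B.a f z • B.v x (f z) = _
  have h1 := B.v_hol x (f z) hz
  unfold LB.db0 at h1
  unfold pulla
  simp only [map_sum, map_smul, LB.actL_apply, Finset.sum_smul, ← Finset.sum_add_distrib]
  refine Finset.sum_eq_zero fun p _ => ?_
  rw [smul_eq_mul, mul_smul, ← smul_add, h1 p, smul_zero]

omit [IsManifold 𝓘(ℂ, C2) ω X] in
theorem v_cont {x y : X} (hy : y ∈ D.U x) : ContinuousAt (B.v x) y := by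
  set e := chartAt C2 y with hed
  have hye : y ∈ e.source := mem_chart_source C2 _
  have h1 := (B.v_reg x y hy e (chart_mem_atlas C2 _) hye).continuousAt.comp (e.continuousAt hye)
  refine h1.congr ?_
  filter_upwards [e.open_source.mem_nhds hye] with t ht
  show B.v x (e.symm (e t)) = B.v x t
  rw [e.left_inv ht]

omit [IsManifold 𝓘(ℂ, C2) ω X] in
theorem v_change {x x' : X} {g : X → ℂ} (hg : ContinuousOn g (D.U x ∩ D.U x'))
    (h : ∀ y ∈ D.U x ∩ D.U x', D.f x y = g y * D.f x' y) {y : X} (hy : y ∈ D.U x)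
    (hy' : y ∈ D.U x') : B.v x' y = g y • B.v x y := by
  have hU := ((D.isOpen x).inter (D.isOpen x')).mem_nhds ⟨hy, hy'⟩
  by_contra hne
  have h1 : ContinuousAt (fun t => B.v x' t - g t • B.v x t) y :=
    (v_cont B hy').sub ((hg.continuousAt hU).smul (v_cont B hy))
  obtain ⟨t, h2, h3, h4⟩ := ((D.ne x' y hy').and_eventually
    ((h1.eventually_ne (sub_ne_zero.2 hne)).and hU)).exists
  have h5 := (B.s_eq x t h4.1).symm.trans (B.s_eq x' t h4.2)
  rw [h t h4, mul_comm, mul_smul] at h5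
  exact h3 (sub_eq_zero.2 (smul_right_injective _ h2 h5).symm)

/-- An injective holomorphic curve in a smooth divisor is an immersion. -/
theorem exists_imm (hD : ∀ x, ∀ y ∈ D.U x, D.f x y = 0 → mfderiv 𝓘(ℂ, C2) 𝓘(ℂ) (D.f x) y ≠ 0)
    {f : ℂ → X} (hf : MDifferentiable 𝓘(ℂ) 𝓘(ℂ, C2) f) (hi : Function.Injective f)
    (h0 : ∀ z, f z ∈ D.supp) (z : ℂ) :
    ∃ g : X → ℂ, MDifferentiableAt 𝓘(ℂ, C2) 𝓘(ℂ) g (f z) ∧ deriv (fun t => g (f t)) z ≠ 0 := by
  obtain ⟨e, e1, e2, e3, e4, e5, e6, e7, e8⟩ := exists_coordU (D.isOpen (f z)) (D.mem (f z))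
    (holN_f D (f z) (D.mem _)) (hD _ _ (D.mem _) (h0 z))
  have he : IsCoord e (D.f (f z)) (f z) := ⟨e1, e2, e3, e4, e6, e7, e8⟩
  refine ⟨fun x => (e x).2, (he.holSnd e1).self, ?_⟩
  refine Vale.Agent.P247.H558.VF.injOn_deriv_ne_zero (U := f ⁻¹' e.source)
    (e.open_source.preimage hf.continuous) (fun t ht => ?_) (fun t ht t' ht' h => ?_) e1
  · exact (MDifferentiableAt.comp t (he.holSnd ht).self
      (hf t)).differentiableAt.differentiableWithinAt
  · refine hi (e.injOn ht ht' (Prod.ext ?_ h))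
    rw [e3 _ ht, e3 _ ht', (mem_supp_iff D (e5 ht)).1 (h0 t), (mem_supp_iff D (e5 ht')).1 (h0 t')]

end Vale.Agent.P267S72
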