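import Vale.Agent.P267S72.StN
import Vale.Agent.P281.MF.Hol

/-!
# P267 bridge: conormal frames from local equations
-/

open scoped Manifold ContDiff Topology
open Set Filter

namespace Vale.Agent.P267S72

open Vale.Agent.P267.Final

variable {X : Type*} [TopologicalSpace X] [ChartedSpace (ℂ × ℂ) X] [IsManifold 𝓘(ℂ, ℂ × ℂ) ω X]

theorem diffAt_chart {g : X → ℂ} {e : OpenPartialHomeomorph X (ℂ × ℂ)} (he : e ∈ atlas (ℂ × ℂ) X)
    {y : X} (hy : y ∈ e.source) (hg : MDifferentiableAt 𝓘(ℂ, ℂ × ℂ) 𝓘(ℂ) g y) :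
    DifferentiableAt ℂ (fun w => g (e.symm w)) (e y) := by
  have : IsManifold 𝓘(ℂ, ℂ × ℂ) 1 X := IsManifold.of_le (n := ω) le_top
  have h8 : MDifferentiableAt 𝓘(ℂ, ℂ × ℂ) 𝓘(ℂ, ℂ × ℂ) e.symm (e y) :=
    mdifferentiableAt_atlas_symm he (e.map_source hy)
  have h10 : MDifferentiableAt 𝓘(ℂ, ℂ × ℂ) 𝓘(ℂ) (fun z => g (e.symm z)) (e y) :=
    MDifferentiableAt.comp (e y) (by rw [e.left_inv hy]; exact hg) h8
  exact h10.differentiableAt

/-- The differential of a function. -/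
noncomputable def dm (g : X → ℂ) (y : X) : TangentSpace 𝓘(ℂ, ℂ × ℂ) y →L[ℂ] ℂ :=
  mfderiv 𝓘(ℂ, ℂ × ℂ) 𝓘(ℂ) g y

theorem mfderiv_chart {g : X → ℂ} {e : OpenPartialHomeomorph X (ℂ × ℂ)}
    (he : e ∈ atlas (ℂ × ℂ) X) {y : X} (hy : y ∈ e.source)
    (hg : MDifferentiableAt 𝓘(ℂ, ℂ × ℂ) 𝓘(ℂ) g y) (v : TangentSpace 𝓘(ℂ, ℂ × ℂ) y) :
    dm g y v = fderiv ℂ (fun w => g (e.symm w)) (e y)
      (mfderiv 𝓘(ℂ, ℂ × ℂ) 𝓘(ℂ, ℂ × ℂ) e y v) := by
  have : IsManifold 𝓘(ℂ, ℂ × ℂ) 1 X := IsManifold.of_le (n := ω) le_top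
  have h1 : g =ᶠ[𝓝 y] (fun w => g (e.symm w)) ∘ e := by
    filter_upwards [e.open_source.mem_nhds hy] with z hz
    rw [Function.comp_apply, e.left_inv hz]
  have h2 := (diffAt_chart he hy hg).mdifferentiableAt
  rw [dm, h1.mfderiv_eq, mfderiv_comp y h2 (mdifferentiableAt_atlas he hy), mfderiv_eq_fderiv]
  rfl

theorem analyticAt_chart {g : X → ℂ} {U : Set X} (hU : IsOpen U)
    (hg : MDifferentiableOn 𝓘(ℂ, ℂ × ℂ) 𝓘(ℂ) g U) {e : OpenPartialHomeomorph X (ℂ × ℂ)}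
    (he : e ∈ atlas (ℂ × ℂ) X) {y : X} (hy : y ∈ e.source) (hyU : y ∈ U) :
    AnalyticAt ℂ (fun w => g (e.symm w)) (e y) := by
  have hV : IsOpen (e.target ∩ e.symm ⁻¹' U) := e.symm.isOpen_inter_preimage hU
  have h1 : DifferentiableOn ℂ (fun w => g (e.symm w)) (e.target ∩ e.symm ⁻¹' U) := by
    intro w hw
    have h2 := diffAt_chart he (e.map_target hw.1)
      ((hg _ hw.2).mdifferentiableAt (hU.mem_nhds hw.2))
    rw [e.right_inv hw.1] at h2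
    exact h2.differentiableWithinAt
  have h3 : e y ∈ e.target ∩ e.symm ⁻¹' U :=
    ⟨e.map_source hy, by rw [mem_preimage, e.left_inv hy]; exact hyU⟩
  exact Vale.Agent.P281.MF.analyticAt_of_differentiableOn hV h1 h3

variable (D : EffDiv X)

/-- The differentials of two local equations at a zero. -/
theorem fderiv_change {x x' y : X} (hy : y ∈ D.U x) (hy' : y ∈ D.U x') (h0 : D.f x' y = 0)
    {g : X → ℂ} (hg : MDifferentiableOn 𝓘(ℂ, ℂ × ℂ) 𝓘(ℂ) g (D.U x ∩ D.U x'))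
    (hf : ∀ y ∈ D.U x ∩ D.U x', D.f x y = g y * D.f x' y) {e : OpenPartialHomeomorph X (ℂ × ℂ)}
    (he : e ∈ atlas (ℂ × ℂ) X) (hye : y ∈ e.source) :
    fderiv ℂ (fun w => D.f x (e.symm w)) (e y) =
      g y • fderiv ℂ (fun w => D.f x' (e.symm w)) (e y) := by
  have hU := ((D.isOpen x).inter (D.isOpen x')).mem_nhds ⟨hy, hy'⟩
  have h1 := diffAt_chart he hye ((hg y ⟨hy, hy'⟩).mdifferentiableAt hU)
  have h2 := diffAt_chart he hye ((D.holo x' y hy').mdifferentiableAt ((D.isOpen x').mem_nhds hy'))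
  have h3 : Tendsto e.symm (𝓝 (e y)) (𝓝 y) := by
    have := (e.continuousAt_symm (e.map_source hye)).tendsto
    rwa [e.left_inv hye] at this
  have h4 : (fun w => D.f x (e.symm w)) =ᶠ[𝓝 (e y)] fun w => g (e.symm w) * D.f x' (e.symm w) := by
    filter_upwards [h3.eventually hU] with w hw
    exact hf _ hw
  rw [h4.fderiv_eq, fderiv_fun_mul h1 h2, e.left_inv hye, h0]
  refine ContinuousLinearMap.ext fun v => ?_
  simp

/-- Coefficients of a holomorphic frame of the restriction of `𝒪(D)` to the curve `γ`. -/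
structure Coef (γ : ℂ → X) (c : X → ℂ → ℂ) : Prop where
  holo : ∀ x, DifferentiableOn ℂ (c x) (γ ⁻¹' D.U x)
  ne : ∀ x z, γ z ∈ D.U x → c x z ≠ 0
  change : ∀ x x' (g : X → ℂ), ContinuousOn g (D.U x ∩ D.U x') →
    (∀ y ∈ D.U x ∩ D.U x', D.f x y = g y * D.f x' y) →
    ∀ z, γ z ∈ D.U x → γ z ∈ D.U x' → c x z = g (γ z) * c x' z

/-- The conormal frame. -/
noncomputable def cov (γ : ℂ → X) (c : X → ℂ → ℂ) : Covec X := fun y =>
  (c y (Function.invFun γ y))⁻¹ • dm (D.f y) y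

omit [IsManifold 𝓘(ℂ, ℂ × ℂ) ω X] in
theorem cov_apply {γ : ℂ → X} (hi : Function.Injective γ) (c : X → ℂ → ℂ) (z : ℂ) :
    cov D γ c (γ z) = (c (γ z) z)⁻¹ • dm (D.f (γ z)) (γ z) := by
  unfold cov
  rw [Function.leftInverse_invFun hi z]

theorem cov_frame {γ : ℂ → X} (hγ : MDifferentiable 𝓘(ℂ) 𝓘(ℂ, ℂ × ℂ) γ)
    (hi : Function.Injective γ) (h0 : ∀ x z, γ z ∈ D.U x → D.f x (γ z) = 0)
    (hd : ∀ x, ∀ y ∈ D.U x, D.f x y = 0 → ∀ e ∈ atlas (ℂ × ℂ) X, y ∈ e.source →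
      ∃ v, fderiv ℂ (fun z => D.f x (e.symm z)) (e y) v ≠ 0)
    {c : X → ℂ → ℂ} (hc : Coef D γ c) : IsConormalFrame γ (cov D γ c) := by
  have : IsManifold 𝓘(ℂ, ℂ × ℂ) 1 X := IsManifold.of_le (n := ω) le_top
  have hm : ∀ y, MDifferentiableAt 𝓘(ℂ, ℂ × ℂ) 𝓘(ℂ) (D.f y) y := fun y =>
    (D.holo y y (D.mem y)).mdifferentiableAt ((D.isOpen y).mem_nhds (D.mem y))
  have hcov : ∀ z v, cov D γ c (γ z) v = (c (γ z) z)⁻¹ * dm (D.f (γ z)) (γ z) v := by
    intro z v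
    rw [cov_apply D hi]
    rfl
  refine ⟨fun z hz => ?_, fun z v => ?_, fun e he => ?_⟩
  · obtain ⟨v, hv⟩ := hd (γ z) (γ z) (D.mem _) (h0 _ z (D.mem _)) _ (chart_mem_atlas _ (γ z))
      (mem_chart_source _ _)
    obtain ⟨u, hu⟩ := (mdifferentiable_of_mem_atlas (I := 𝓘(ℂ, ℂ × ℂ))
      (chart_mem_atlas (ℂ × ℂ) (γ z))).mfderiv_surjective (mem_chart_source _ (γ z)) v
    have h1 := hcov z u
    rw [hz, mfderiv_chart (chart_mem_atlas _ (γ z)) (mem_chart_source _ _) (hm _), hu] at h1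
    exact mul_ne_zero (inv_ne_zero (hc.ne _ z (D.mem _))) hv h1.symm
  · rw [hcov]
    have h1 : D.f (γ z) ∘ γ =ᶠ[𝓝 z] fun _ => (0 : ℂ) := by
      filter_upwards [(hγ z).continuousAt.preimage_mem_nhds
        ((D.isOpen (γ z)).mem_nhds (D.mem _))] with t ht
      exact h0 _ t ht
    have h2 := mfderiv_comp z (hm (γ z)) (hγ z)
    rw [h1.mfderiv_eq, mfderiv_const] at h2
    have h3 : dm (D.f (γ z)) (γ z) (mfderiv 𝓘(ℂ) 𝓘(ℂ, ℂ × ℂ) γ z v) = 0 :=
      (congrArg (fun A : ℂ →L[ℂ] ℂ => A v) h2).symm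
    rw [h3, mul_zero]
  · refine ⟨fun z => (c (γ z) z)⁻¹ • fderiv ℂ (fun w => D.f (γ z) (e.symm w)) (e (γ z)),
      fun z hz => DifferentiableAt.differentiableWithinAt ?_, fun z hz v => ?_⟩
    · have hn := (hγ z).continuousAt.preimage_mem_nhds ((D.isOpen (γ z)).mem_nhds (D.mem _))
      have h1 : DifferentiableAt ℂ (fun t => e (γ t)) z :=
        (MDifferentiableAt.comp z (mdifferentiableAt_atlas he hz) (hγ z)).differentiableAt
      have h2 := (analyticAt_chart (D.isOpen (γ z)) (D.holo (γ z)) he hz (D.mem _)).fderiv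
      have h3 : DifferentiableAt ℂ (fun t => (c (γ z) t)⁻¹ •
          fderiv ℂ (fun w => D.f (γ z) (e.symm w)) (e (γ t))) z :=
        (((hc.holo (γ z)).differentiableAt hn).inv (hc.ne _ z (D.mem _))).smul
          (h2.differentiableAt.comp z h1)
      refine h3.congr_of_eventuallyEq ?_
      filter_upwards [hn, (hγ z).continuousAt.preimage_mem_nhds (e.open_source.mem_nhds hz)]
        with t ht hte
      obtain ⟨g, hg, hg'⟩ := D.change (γ t) (γ z)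
      rw [fderiv_change D (D.mem _) ht (h0 _ t ht) hg (fun y hy => (hg' y hy).2) he hte,
        hc.change (γ t) (γ z) g hg.continuousOn (fun y hy => (hg' y hy).2) t (D.mem _) ht,
        smul_smul]
      congr 1
      have := (hg' _ ⟨D.mem _, ht⟩).1
      field_simp
    · rw [hcov, mfderiv_chart he hz (hm _)]
      rfl

end Vale.Agent.P267S72
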