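import Vale.Agent.P267S72.Norm1
import Vale.Agent.P267S72.Norm2
import Vale.Agent.P267.H770.Final.Bridge

/-!
# P267 bridge: minimality by the degree of the normal bundle
-/

open scoped Manifold ContDiff Topology
open Set Filter

namespace Vale.Agent.P267S72

open Vale.Agent.P267 Vale.Agent.P267.FL Vale.Agent.P267.H205.P1 Vale.Agent.P267.H815

variable {X : Type} [TopologicalSpace X] [ChartedSpace (ℂ × ℂ) X] [IsManifold 𝓘(ℂ, ℂ × ℂ) ω X]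

attribute [local instance] Final.cs Final.isManifold_cs

variable {ι : Type} [Fintype ι] [DecidableEq ι] {D : EffDiv X} (B : H451.DivLB D ι)

theorem exists_Coef {f : ℂ → X} (hf : MDifferentiable 𝓘(ℂ) 𝓘(ℂ, C2) f)
    {s : ℂ → EuclideanSpace ℂ ι} (hs : (pullC B.L B.hol.smooth hf).IsSec s)
    (h0 : ∀ z, (pullC B.L B.hol.smooth hf).D s z = 0) (hne : ∀ z, s z ≠ 0) :
    ∃ c : X → ℂ → ℂ, Coef (Final.oldDiv D) f c ∧
      ∀ x z, f z ∈ D.U x → s z = c x z • B.v x (f z) := by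
  choose c hc hc' using exists_coef B hf hs h0
  refine ⟨c, ⟨hc, fun x z hz h => hne z ?_, fun x x' g hg h z hz hz' => ?_⟩, hc'⟩
  · rw [hc' x z hz, h, zero_smul]
  · have h1 := (hc' x z hz).symm.trans (hc' x' z hz')
    rw [v_change B hg h hz hz', smul_smul] at h1
    rw [smul_left_injective ℂ (B.v_ne x _ hz) h1, mul_comm]

omit [IsManifold 𝓘(ℂ, ℂ × ℂ) ω X] in
theorem imm_of {f : ℂ → X} (hf : MDifferentiable 𝓘(ℂ) 𝓘(ℂ, C2) f) {z : ℂ}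
    (h : ∃ g : X → ℂ, MDifferentiableAt 𝓘(ℂ, C2) 𝓘(ℂ) g (f z) ∧ deriv (fun t => g (f t)) z ≠ 0) :
    mfderiv 𝓘(ℂ) 𝓘(ℂ, ℂ × ℂ) f z ≠ 0 := by
  obtain ⟨g, hg, hd⟩ := h
  intro h0
  have h1 : MDifferentiableAt 𝓘(ℂ, ℂ × ℂ) 𝓘(ℂ) g (f z) :=
    MDifferentiableAt.comp (f := id) (f z) hg (Final.mdiff_id (f z))
  have h2 := mfderiv_comp z h1 (Final.mdiff_to hf z)
  rw [h0, mfderiv_eq_fderiv] at h2
  apply hd
  have h3 : fderiv ℂ (fun t => g (f t)) z 1 = 0 :=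
    (congrArg (fun A : ℂ →L[ℂ] ℂ => A 1) h2).trans
      (map_zero (mfderiv 𝓘(ℂ, ℂ × ℂ) 𝓘(ℂ) g (f z)))
  exact h3

/-- A smooth rational curve of self-intersection number `d` is an embedded projective line whose
normal bundle has degree `d`. -/
theorem normalDegree_of [CompactSpace X] [T2Space X] (hD : D.IsSmoothRational) {d : ℤ}
    (h : D.SelfInt d) : ∃ φ : Final.P1Map X, IsEmbedded φ ∧ φ.image = D.supp ∧
      NormalDegree φ d := by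
  obtain ⟨N, ⟨B⟩⟩ := H451.exists_divLB D
  have hd := (Final.smoothRational_old hD).1
  obtain ⟨h1, φ, hi, hn, hs⟩ := hD
  have hdeg : degOn B.L B.hol.smooth φ = d := by
    have := deg_eq B h1 φ hi hs h
    exact_mod_cast this
  obtain ⟨s₀, s₁, hF⟩ := (pull B.L B.hol.smooth φ).exists_frames_deg
  have hF' : Frames (pull B.L B.hol.smooth φ) d s₀ s₁ := hdeg ▸ hF
  obtain ⟨c₀, hc₀, e₀⟩ := exists_Coef B φ.holo₀ hF'.sec₀ hF'.hol₀ hF'.ne₀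
  obtain ⟨c₁, hc₁, e₁⟩ := exists_Coef B φ.holo₁ hF'.sec₁ hF'.hol₁ hF'.ne₁
  have hg : ∀ w : ℂ, w ≠ 0 → φ.f₁ w = φ.f₀ w⁻¹ := fun w hw => by
    rw [φ.glue _ (inv_ne_zero hw), inv_inv]
  have hi₁ : Function.Injective φ.f₁ := by
    intro w w' hw
    by_cases h0 : w = 0 <;> by_cases h0' : w' = 0
    · rw [h0, h0']
    · exact absurd ⟨_, by rw [← hg w' h0', ← hw, h0]⟩ hn
    · exact absurd ⟨_, by rw [← hg w h0, hw, h0']⟩ hn
    · rw [hg w h0, hg w' h0'] at hw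
      exact inv_injective (hi hw)
  have m₀ : ∀ z, φ.f₀ z ∈ D.supp := fun z => by
    rw [hs]
    exact Or.inl ⟨z, rfl⟩
  have m₁ : ∀ z, φ.f₁ z ∈ D.supp := fun z => by
    by_cases h0 : z = 0
    · rw [hs, h0]
      exact Or.inr rfl
    · rw [hg z h0]
      exact m₀ _
  refine ⟨Final.oldP1 φ, ⟨hi, hn, fun z => imm_of φ.holo₀ (exists_imm h1 φ.holo₀ hi m₀ z),
    fun z => imm_of φ.holo₁ (exists_imm h1 φ.holo₁ hi₁ m₁ z)⟩, hs.symm,
    cov (Final.oldDiv D) φ.f₀ c₀, cov (Final.oldDiv D) φ.f₁ c₁,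
    cov_frame _ (Final.mdiff_to φ.holo₀) hi (fun x z hz => (mem_supp_iff D hz).1 (m₀ z)) hd hc₀,
    cov_frame _ (Final.mdiff_to φ.holo₁) hi₁ (fun x z hz => (mem_supp_iff D hz).1 (m₁ z)) hd hc₁,
    fun z hz => ?_⟩
  show cov (Final.oldDiv D) φ.f₀ c₀ (φ.f₀ z) = z ^ d • cov (Final.oldDiv D) φ.f₁ c₁ (φ.f₀ z)
  have h2 : Function.invFun φ.f₁ (φ.f₀ z) = z⁻¹ := by
    rw [φ.glue z hz]
    exact Function.leftInverse_invFun hi₁ _
  have h3 : c₀ (φ.f₀ z) z = z ^ (-d) * c₁ (φ.f₀ z) z⁻¹ := by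
    have h4 := hF'.glue z hz
    rw [e₀ (φ.f₀ z) z (D.mem _), e₁ (φ.f₀ z) z⁻¹ (by rw [← φ.glue z hz]; exact D.mem _),
      ← φ.glue z hz, smul_smul] at h4
    exact smul_left_injective ℂ (B.v_ne _ _ (D.mem _)) h4
  rw [cov_apply _ hi]
  unfold cov
  rw [h2, h3, smul_smul, mul_inv, zpow_neg, inv_inv]

theorem minimal_of [CompactSpace X] [T2Space X] (h : IsMinimal X) : P267.Minimal X := by
  rintro ⟨D, h1, h2⟩
  obtain ⟨φ, h3, -, h4⟩ := normalDegree_of h1 (d := -1) (by exact_mod_cast h2)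
  exact h ⟨φ, h3, h4⟩

end Vale.Agent.P267S72
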