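import Vale.Agent.P267S72.Coh
import Vale.Agent.P246.T.PR2
import Vale.Agent.P267.H175.RGood
import Vale.Agent.P267.H175.Nerve1

/-!
# P267 bridge: small singular cochains as a presheaf of complexes
-/

namespace Vale.Agent.P267S72

open Vale.Agent.P246.T Vale.Agent.P267.H175 TopologicalSpace Set

variable {X : Type} [TopologicalSpace X] {ι : Type} (U : ι → Opens X)

/-- The small simplices with image in `V`. -/
abbrev SV (V : Opens X) (k : ℕ) : Type :=
  {σ : C(Dl (k + 1), X) // (∀ x, σ x ∈ V) ∧ ∃ j, ∀ x, σ x ∈ U j}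

/-- The restriction of a cochain to the small simplices in `V`. -/
noncomputable def rV (V : Opens X) (k : ℕ) : (C(Dl (k + 1), X) → ℝ) →ₗ[ℝ] (SV U V k → ℝ) :=
  LinearMap.funLeft ℝ ℝ Subtype.val

theorem rV_surjective (V : Opens X) (k : ℕ) : Function.Surjective (rV U V k) :=
  LinearMap.funLeft_surjective_of_injective ℝ ℝ _ Subtype.val_injective

/-- The coboundary of small cochains. -/
noncomputable def dV (V : Opens X) (k : ℕ) : (SV U V k → ℝ) →ₗ[ℝ] (SV U V (k + 1) → ℝ) where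
  toFun φ τ := ∑ i : Fin (k + 2), (-1 : ℤ) ^ (i : ℕ) •
    φ ⟨τ.1.comp (face (k + 1) i), fun _ => τ.2.1 _, τ.2.2.imp fun _ h _ => h _⟩
  map_add' c c' := by
    funext τ
    simp only [Pi.add_apply, smul_add, Finset.sum_add_distrib]
  map_smul' r c := by
    funext τ
    simp only [Pi.smul_apply, RingHom.id_apply, Finset.smul_sum, smul_comm r]

theorem dV_rV (V : Opens X) (k : ℕ) (φ : C(Dl (k + 1), X) → ℝ) :
    dV U V k (rV U V k φ) = rV U V (k + 1) (cb X k φ) := rfl

theorem cb_cb (k : ℕ) (b : C(Dl (k + 1), X) → ℝ) : cb X (k + 1) (cb X k b) = 0 := by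
  funext τ
  show cobd (cobd b) τ = 0
  rw [← val_single (cobd (cobd b)) τ, ← val_bd, ← val_bd, SD.bd_bd, map_zero]

/-- The small singular cochains. -/
noncomputable def singPre : FormPre.{0, 0, 0} X U where
  A k V := SV U V k → ℝ
  res h := LinearMap.funLeft ℝ ℝ fun σ => ⟨σ.1, fun x => h (σ.2.1 x), σ.2.2⟩
  res_self _ _ := rfl
  res_res _ _ _ := rfl
  d := dV U _ _
  d_d := by
    intro k V ω
    obtain ⟨φ, rfl⟩ := rV_surjective U V k ω
    rw [dV_rV, dV_rV, cb_cb, map_zero]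
  res_d _ _ := rfl
  avg :=
    { toFun := fun ω σ => ω (Classical.choose σ.2.2)
        ⟨σ.1, fun x => ⟨Classical.choose_spec σ.2.2 x, σ.2.1 x⟩, σ.2.2⟩
      map_add' := fun _ _ => rfl
      map_smul' := fun _ _ => rfl }
  avg_res _ := rfl
  res_avg _ _ := rfl
  cst :=
    { toFun := fun r _ => r
      map_add' := fun _ _ => rfl
      map_smul' := fun _ _ => rfl }
  d_cst := by
    intro V r
    funext τ
    show ∑ i : Fin 2, (-1 : ℤ) ^ (i : ℕ) • r = 0
    simp
  res_cst _ _ := rfl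

variable {U}

theorem val_con {V : Opens X} {j : ι} (hV : V ≤ U j) {k : ℕ} {φ : C(Dl (k + 1), X) → ℝ}
    (h : rV U V k φ = 0) {c : Ch k X} (hc : c ∈ P246.T.Con (V : Set X) k) : val φ c = 0 := by
  have := SD.supp_map (val φ) (T := ⊥) (fun σ hσ => by
    rw [val_single]
    exact congrFun h ⟨σ, hσ, j, fun x => hV (hσ x)⟩) hc
  exact (Submodule.mem_bot ℤ).1 this

theorem singPre_P0 {V : Opens X} {j : ι} (hV : V ≤ U j) (h : PR.Acyc (V : Set X)) :
    (singPre U).P0 V := by
  intro f hf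
  obtain ⟨φ, rfl⟩ := rV_surjective U V 0 f
  have hφ : rV U V 1 (cb X 0 φ) = 0 := hf
  rcases isEmpty_or_nonempty (SV U V 0) with h0 | ⟨⟨σ₀⟩⟩
  · exact ⟨0, funext fun σ => h0.elim σ⟩
  refine ⟨φ σ₀.1, funext fun σ => ?_⟩
  obtain ⟨b, hb, h1⟩ := h.zero (Finsupp.single σ.1 1 - Finsupp.single σ₀.1 1)
    (sub_mem (PR.single_mem σ.2.1 1) (PR.single_mem σ₀.2.1 1))
    (by rw [map_sub, PR.wt_single, PR.wt_single, sub_self])
  have h2 : val φ (bd 0 b) = 0 := by
    rw [val_bd]
    exact val_con hV hφ hb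
  rw [h1, map_sub, val_single, val_single, sub_eq_zero] at h2
  exact h2

theorem singPre_Pk {V : Opens X} {j : ι} (hV : V ≤ U j) (h : PR.Acyc (V : Set X)) (k : ℕ) :
    (singPre U).Pk k V := by
  intro f hf
  obtain ⟨φ, rfl⟩ := rV_surjective U V (k + 1) f
  have hφ : rV U V (k + 2) (cb X (k + 1) φ) = 0 := hf
  obtain ⟨l, hl⟩ := exists_fac ((bd k).comp (P246.T.Con (V : Set X) (k + 1)).subtype)
    ((val φ).comp (P246.T.Con (V : Set X) (k + 1)).subtype) (by
      intro c hc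
      obtain ⟨b, hb, h1⟩ := h.succ k c.1 c.2 hc
      show val φ c.1 = 0
      rw [← h1, val_bd]
      exact val_con hV hφ hb)
  refine ⟨rV U V k fun σ => l (Finsupp.single σ 1), funext fun τ => ?_⟩
  show cobd (fun σ => l (Finsupp.single σ 1)) τ.1 = φ τ.1
  rw [← val_single (cobd _) τ.1, ← val_bd, val_lin, ← val_single φ τ.1]
  exact hl ⟨Finsupp.single τ.1 1, PR.single_mem τ.2.1 1⟩

/-- Chart convex sets are acyclic. -/
theorem acyc_of_chartConvex {E : Type*} [NormedAddCommGroup E] [NormedSpace ℝ E]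
    [ChartedSpace E X] {V : Opens X} (hV : ChartConvex E V) : PR.Acyc (V : Set X) := by
  obtain ⟨e, -, hVe, hconv⟩ := hV
  rcases (V : Set X).eq_empty_or_nonempty with h | h
  · rw [h]
    exact ⟨fun n c hc _ => ⟨0, zero_mem _, by rw [PR.Con_empty hc, map_zero]⟩,
      fun c hc _ => ⟨0, zero_mem _, by rw [PR.Con_empty hc, map_zero]⟩⟩
  · have h1 := hconv.contractibleSpace (h.image e)
    have h2 : ContractibleSpace (V : Set X) :=
      (e.homeomorphOfImageSubsetSource hVe rfl).contractibleSpace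
    exact PR.acyc_contractible_sub

/-- The small singular cochains are good for a chart convex cover. -/
theorem singPre_good {E : Type*} [NormedAddCommGroup E] [NormedSpace ℝ E] [ChartedSpace E X]
    (hU : GoodCov E U) (hc : ∀ x, ∃ j, x ∈ U j) : (singPre U).Good where
  bot k := ⟨fun a b => funext fun σ => (σ.2.1 (stdSimplex.vertex 0)).elim⟩
  inj := by
    intro V hV r s hrs
    obtain ⟨x, hx⟩ : (V : Set X).Nonempty := by
      rw [Set.nonempty_iff_ne_empty]
      intro h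
      exact hV (Opens.ext h)
    obtain ⟨j, hj⟩ := hc x
    exact congrFun hrs ⟨ContinuousMap.const _ x, fun _ => hx, j, fun _ => hj⟩
  p0_1 i := singPre_P0 le_rfl (acyc_of_chartConvex (hU.one i))
  p0_2 i j := singPre_P0 inf_le_left (acyc_of_chartConvex (hU.two i j))
  p0_3 i j k := singPre_P0 (inf_le_left.trans inf_le_left) (acyc_of_chartConvex (hU.three i j k))
  p1_1 i := singPre_Pk le_rfl (acyc_of_chartConvex (hU.one i)) 0
  p1_2 i j := singPre_Pk inf_le_left (acyc_of_chartConvex (hU.two i j)) 0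
  p2_1 i := singPre_Pk le_rfl (acyc_of_chartConvex (hU.one i)) 1

/-- The cohomology of the small singular cochains has a basis with `n` elements iff the integral
singular homology has rank `n`. -/
theorem singPre_basis_iff (hc : ∀ x, ∃ j, x ∈ U j) (k n : ℕ) :
    Nonempty (Module.Basis (Fin n) ℝ ((singPre U).Coh k)) ↔
      Module.rank ℤ (HS ℤ X (k + 1)) = n := by
  have hk : ∀ (m : ℕ) (φ : C(Dl (m + 1), X) → ℝ),
      rV U ⊤ m φ = 0 ↔ ∀ σ ∈ Sml (fun j => (U j : Set X)) m, φ σ = 0 := fun m φ =>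
    ⟨fun h σ hσ => congrFun h ⟨σ, fun _ => trivial, hσ⟩, fun h => funext fun σ => h σ.1 σ.2.2⟩
  exact coh_basis_iff (U := fun j => (U j : Set X)) (fun j => (U j).isOpen) hc k
    (dV U ⊤ k) (dV U ⊤ (k + 1)) (rV U ⊤ k) (rV U ⊤ (k + 1)) (rV U ⊤ (k + 2))
    (rV_surjective U ⊤ k) (rV_surjective U ⊤ (k + 1)) (hk _) (hk _) (dV_rV U ⊤ k)
    (dV_rV U ⊤ (k + 1)) n

end Vale.Agent.P267S72
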