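import Vale.Agent.P246.T.SD
import Mathlib.Algebra.Category.Grp.Injective

/-!
# P267 bridge: small singular chains and cochains

For an open cover `U` of `X`, a real cochain which is a cocycle on the `U`-small simplices agrees
on them with a cocycle, and a cocycle which vanishes on small simplices is a coboundary.
-/

namespace Vale.Agent.P267S72

open Vale.Agent.P246.T Vale.Agent.P246.T.SD Set

variable {X : Type} [TopologicalSpace X] {ι : Type*} (U : ι → Set X)

/-- The simplices with image in a member of the family `U`. -/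
def Sml (n : ℕ) : Set C(Dl (n + 1), X) := {σ | ∃ j, ∀ x, σ x ∈ U j}

/-- The small chains. -/
def SC (n : ℕ) : Submodule ℤ (Ch n X) := Finsupp.supported ℤ ℤ (Sml U n)

variable {U}

theorem con_le (j : ι) (n : ℕ) : P246.T.Con (U j) n ≤ SC U n :=
  Finsupp.supported_mono fun _ hσ => ⟨j, hσ⟩

theorem mem_con_univ {Y : Type} [TopologicalSpace Y] {n : ℕ} (c : Ch n Y) :
    c ∈ P246.T.Con univ n := by
  rw [P246.T.Con, Finsupp.mem_supported]
  intro _ _ _
  trivial

theorem single_eq_push {n : ℕ} (σ : C(Dl (n + 1), X)) : Finsupp.single σ (1 : ℤ) =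
    push σ n (Finsupp.single (ContinuousMap.id _) 1) := by
  rw [push_single, ContinuousMap.comp_id]

theorem s_mem (S : SdOp) {n : ℕ} {c : Ch n X} (hc : c ∈ SC U n) : S.s X n c ∈ SC U n := by
  refine supp_map (S.s X n) ?_ hc
  rintro σ ⟨j, hj⟩
  rw [single_eq_push, ← S.s_nat]
  exact con_le j n (push_mem (A := univ) (fun x _ => hj x) (mem_con_univ _))

theorem t_mem (S : SdOp) {n : ℕ} {c : Ch n X} (hc : c ∈ SC U n) :
    S.t X n c ∈ SC U (n + 1) := by
  refine supp_map (S.t X n) ?_ hc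
  rintro σ ⟨j, hj⟩
  rw [single_eq_push, ← S.t_nat]
  exact con_le j (n + 1) (push_mem (A := univ) (fun x _ => hj x) (mem_con_univ _))

theorem sd_iter_mem' {n : ℕ} {c : Ch n X} (hc : c ∈ SC U n) (m : ℕ) :
    (sd n X)^[m] c ∈ SC U n := by
  rw [← iter_s]
  exact s_mem _ hc

theorem small_single' (hU : ∀ j, IsOpen (U j)) (hc : ∀ x, ∃ j, x ∈ U j) {n : ℕ}
    (σ : C(Dl (n + 1), X)) : ∃ m : ℕ, (sd n X)^[m] (Finsupp.single σ 1) ∈ SC U n := by
  have hc1 : ∀ j, IsOpen (σ ⁻¹' U j) := fun j => (hU j).preimage σ.continuous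
  have hc2 : (univ : Set (Dl (n + 1))) ⊆ ⋃ j, σ ⁻¹' U j := fun x _ => mem_iUnion.2 (hc (σ x))
  obtain ⟨δ, hδ, hδ'⟩ := lebesgue_number_lemma_of_metric isCompact_univ hc1 hc2
  obtain ⟨m, hm⟩ := exists_pow_lt_of_lt_one hδ
    (show (n : ℝ) / (n + 1) < 1 by rw [div_lt_one (by positivity)]; linarith)
  refine ⟨m, ?_⟩
  rw [single_eq, sd_real_iter]
  have := supp_map ((push σ n).comp (real n n)) (T := SC U n) ?_ (sd_iter_small n m)
  · exact this
  intro w hw
  rw [LinearMap.comp_apply, real_single, push_single]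
  obtain ⟨b, hb⟩ := hδ' (w 0) (mem_univ _)
  have hx : ∀ x, aff w x ∈ σ ⁻¹' U b := by
    intro x
    apply hb
    rw [Metric.mem_ball]
    refine lt_of_le_of_lt ?_ hm
    rw [Subtype.dist_eq, dist_pi_le_iff (by positivity)]
    intro a
    rw [Real.dist_eq]
    exact avg_le x _ _ fun i => hw i 0 a
  exact con_le b n (single_mem (A := U b) (σ := σ.comp (aff w)) (fun x => hx x) _)

theorem exists_small (hU : ∀ j, IsOpen (U j)) (hc : ∀ x, ∃ j, x ∈ U j) {n : ℕ} (c : Ch n X) :
    ∃ S : SdOp, S.s X n c ∈ SC U n := by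
  suffices ∃ m : ℕ, (sd n X)^[m] c ∈ SC U n by
    obtain ⟨m, hm⟩ := this
    exact ⟨iter m, by rw [iter_s]; exact hm⟩
  induction c using Finsupp.induction_linear with
  | zero => exact ⟨0, zero_mem _⟩
  | add a b ha hb =>
    obtain ⟨m, hm⟩ := ha
    obtain ⟨m', hm'⟩ := hb
    refine ⟨m + m', ?_⟩
    rw [iter_add]
    apply add_mem
    · rw [add_comm m m', Function.iterate_add_apply]
      exact sd_iter_mem' hm m'
    · rw [Function.iterate_add_apply]
      exact sd_iter_mem' hm' m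
  | single σ z =>
    obtain ⟨m, hm⟩ := small_single' hU hc σ
    refine ⟨m, ?_⟩
    have : Finsupp.single σ z = z • Finsupp.single σ (1 : ℤ) := by
      rw [Finsupp.smul_single, smul_eq_mul, mul_one]
    rw [this, iter_smul]
    exact Submodule.smul_mem _ _ hm

/-- A small chain which is a boundary is the boundary of a small chain. -/
theorem small_bd (hU : ∀ j, IsOpen (U j)) (hc : ∀ x, ∃ j, x ∈ U j) {n : ℕ} (c : Ch (n + 1) X)
    (h : bd n c ∈ SC U n) : ∃ c' ∈ SC U (n + 1), bd n c' = bd n c := by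
  obtain ⟨S, hS⟩ := exists_small hU hc c
  refine ⟨S.s X (n + 1) c + S.t X n (bd n c), add_mem hS (t_mem S h), ?_⟩
  have h1 := S.t_succ X n c
  have h2 : S.s X (n + 1) c + S.t X n (bd n c) = c - bd (n + 1) (S.t X (n + 1) c) := by
    rw [h1]
    abel
  rw [h2, map_sub, bd_bd, sub_zero]

/-- A cycle is homologous to a small chain. -/
theorem small_cyc (hU : ∀ j, IsOpen (U j)) (hc : ∀ x, ∃ j, x ∈ U j) {n : ℕ} (c : Ch (n + 1) X)
    (h : bd n c = 0) : ∃ c' ∈ SC U (n + 1), ∃ b, c = c' + bd (n + 1) b := by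
  obtain ⟨S, hS⟩ := exists_small hU hc c
  refine ⟨S.s X (n + 1) c, hS, S.t X (n + 1) c, ?_⟩
  rw [S.t_succ, h, map_zero]
  abel

/-- The additive group of the reals is injective. -/
theorem exists_fac {A B : Type} [AddCommGroup A] [AddCommGroup B] (f : A →ₗ[ℤ] B)
    (g : A →ₗ[ℤ] ℝ) (h : ∀ a, f a = 0 → g a = 0) : ∃ l : B →ₗ[ℤ] ℝ, ∀ a, l (f a) = g a := by
  have hk : LinearMap.ker f ≤ LinearMap.ker g := fun a ha => h a ha
  obtain ⟨l, hl⟩ := (Module.Baer.of_divisible ℝ).extension_property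
    ((LinearMap.ker f).liftQ f le_rfl)
    (by rw [← LinearMap.ker_eq_bot]; exact Submodule.ker_liftQ_eq_bot _ _ _ le_rfl)
    ((LinearMap.ker f).liftQ g hk)
  exact ⟨l, fun a => LinearMap.congr_fun hl (Submodule.Quotient.mk a)⟩

/-- The value of a cochain on a chain. -/
noncomputable def val {n : ℕ} (φ : C(Dl (n + 1), X) → ℝ) : Ch n X →ₗ[ℤ] ℝ :=
  Finsupp.linearCombination ℤ φ

theorem val_single {n : ℕ} (φ : C(Dl (n + 1), X) → ℝ) (σ : C(Dl (n + 1), X)) :
    val φ (Finsupp.single σ 1) = φ σ := by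
  rw [val, Finsupp.linearCombination_single, one_smul]

theorem val_bd {n : ℕ} (φ : C(Dl (n + 1), X) → ℝ) (c : Ch (n + 1) X) :
    val φ (bd n c) = val (cobd φ) c := by
  have : (val φ).comp (bd n) = val (cobd φ) := by
    apply lin_ext
    intro σ
    rw [LinearMap.comp_apply, bds, map_sum, val_single, cobd]
    refine Finset.sum_congr rfl fun i _ => ?_
    rw [map_smul, val_single]
  exact LinearMap.congr_fun this c

theorem val_lin {n : ℕ} (l : Ch n X →ₗ[ℤ] ℝ) : val (fun σ => l (Finsupp.single σ 1)) = l :=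
  lin_ext fun σ => val_single _ σ

theorem val_small {n : ℕ} {φ : C(Dl (n + 1), X) → ℝ} (h : ∀ σ ∈ Sml U n, φ σ = 0) {c : Ch n X}
    (hc : c ∈ SC U n) : val φ c = 0 := by
  have := supp_map (val φ) (T := ⊥) (fun σ hσ => by rw [val_single, h σ hσ]; exact zero_mem _) hc
  exact (Submodule.mem_bot ℤ).1 this

/-- A cochain which is a cocycle on small simplices agrees on them with a cocycle. -/
theorem small_ext (hU : ∀ j, IsOpen (U j)) (hc : ∀ x, ∃ j, x ∈ U j) {n : ℕ}
    (φ : C(Dl (n + 1), X) → ℝ) (h : ∀ τ ∈ Sml U (n + 1), cobd φ τ = 0) :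
    ∃ ψ : C(Dl (n + 1), X) → ℝ, (∀ τ, cobd ψ τ = 0) ∧ ∀ σ ∈ Sml U n, ψ σ = φ σ := by
  obtain ⟨l, hl⟩ := exists_fac ((SC U n).subtype.coprod (bd n))
    (((val φ).comp (SC U n).subtype).comp (LinearMap.fst ℤ _ _)) (by
      rintro ⟨s, c⟩ hs
      have h1 : bd n c = -(s : Ch n X) := by
        rw [eq_neg_iff_add_eq_zero, add_comm]
        exact hs
      obtain ⟨c', hc', h2⟩ := small_bd hU hc c (by rw [h1]; exact neg_mem s.2)
      have h3 : val φ (bd n c') = 0 := by
        rw [val_bd]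
        exact val_small h hc'
      rw [h2, h1, map_neg, neg_eq_zero] at h3
      exact h3)
  refine ⟨fun σ => l (Finsupp.single σ 1), fun τ => ?_, fun σ hσ => ?_⟩
  · rw [← val_single (cobd _) τ, ← val_bd, val_lin]
    have := hl (0, Finsupp.single τ 1)
    simpa using this
  · have := hl (⟨Finsupp.single σ 1, Finsupp.single_mem_supported ℤ 1 hσ⟩, 0)
    rw [← val_single φ σ]
    simpa using this

/-- A cocycle which vanishes on small simplices is a coboundary. -/
theorem small_zero (hU : ∀ j, IsOpen (U j)) (hc : ∀ x, ∃ j, x ∈ U j) {n : ℕ}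
    (ψ : C(Dl (n + 2), X) → ℝ) (h : ∀ τ, cobd ψ τ = 0) (h0 : ∀ σ ∈ Sml U (n + 1), ψ σ = 0) :
    ∃ b : C(Dl (n + 1), X) → ℝ, ∀ σ, cobd b σ = ψ σ := by
  obtain ⟨l, hl⟩ := exists_fac (bd n) (val ψ) (by
    intro c hc0
    obtain ⟨c', hc', b, rfl⟩ := small_cyc hU hc c hc0
    have h1 : cobd ψ = fun _ => 0 := funext h
    rw [map_add, val_small h0 hc', val_bd, h1, zero_add, val]
    simp [Finsupp.linearCombination_apply])
  refine ⟨fun σ => l (Finsupp.single σ 1), fun σ => ?_⟩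
  rw [← val_single (cobd _) σ, ← val_bd, val_lin, hl, val_single]

end Vale.Agent.P267S72
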