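import Vale.Agent.P267.H770.Final.Stmt
import Mathlib.AlgebraicTopology.SingularHomology.Basic
import Mathlib.Algebra.Category.ModuleCat.Colimits
import Mathlib.Algebra.Category.ModuleCat.Abelian

/-!
# P267: the global spherical shell conjecture with the Betti numbers of singular homology
-/

open scoped Manifold ContDiff

namespace Vale.Agent.P267S72

open Vale.Agent.P267.Final

/-- The Betti number `b_k(X)`: the rank of the singular homology group `H_k(X; ℤ)` of Mathlib. -/
noncomputable def betti (X : Type) [TopologicalSpace X] (k : ℕ) : Cardinal :=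
  Module.rank ℤ
    (((AlgebraicTopology.singularHomologyFunctor (ModuleCat.{0} ℤ) k).obj (ModuleCat.of ℤ ℤ)).obj
      (TopCat.of X))

/-- For every compact connected complex surface `X`: if `X` is of class VII (`b₁ = 1` and
`κ = -∞`), minimal and `b₂ > 0`, then `X` contains a global spherical shell; and the Betti numbers
`b₁`, `b₂` are finite and equal to the de Rham Betti numbers. -/
def Statement : Prop :=
  ∀ (X : Type) [TopologicalSpace X] [T2Space X] [CompactSpace X] [ConnectedSpace X]
    [ChartedSpace (ℂ × ℂ) X] [IsManifold 𝓘(ℂ, ℂ × ℂ) ω X],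
    (betti X 1 = 1 → KodairaNegInf X → Minimal X → 0 < betti X 2 → HasGSS X) ∧
      (∃ n : ℕ, betti X 1 = n ∧ BettiSucc X 0 n) ∧ (∃ n : ℕ, betti X 2 = n ∧ BettiSucc X 1 n)

end Vale.Agent.P267S72
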