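import Vale.Agent.P267.H770.Final.Stmt

/-!
# P267: smooth rational curves and the degree of their normal bundle

The self-intersection number of a smooth compact curve `C` in a complex surface is the degree of
its normal bundle. For `C = ℙ¹` the normal bundle is `𝒪(d)` iff the conormal bundle is `𝒪(-d)`.
-/

open scoped Manifold

namespace Vale.Agent.P267S72

open Vale.Agent.P267.Final

/-- A field of complex covectors on `X` (only its values along a curve are used). -/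
abbrev Covec (X : Type*) [TopologicalSpace X] [ChartedSpace (ℂ × ℂ) X] :=
  ∀ x : X, TangentSpace 𝓘(ℂ, ℂ × ℂ) x →L[ℂ] ℂ

variable {X : Type*} [TopologicalSpace X] [ChartedSpace (ℂ × ℂ) X]

/-- The holomorphic map `φ : ℙ¹ → X` is an embedding (an injective immersion), so that its image
is a smooth rational curve. -/
structure IsEmbedded (φ : P1Map X) : Prop where
  inj : Function.Injective φ.f₀
  inf : φ.f₁ 0 ∉ Set.range φ.f₀
  imm₀ : ∀ z, mfderiv 𝓘(ℂ) 𝓘(ℂ, ℂ × ℂ) φ.f₀ z ≠ 0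
  imm₁ : ∀ z, mfderiv 𝓘(ℂ) 𝓘(ℂ, ℂ × ℂ) φ.f₁ z ≠ 0

/-- `z ↦ θ (γ z)` is a holomorphic frame of the conormal bundle of the curve `γ : ℂ → X`: the
covector `θ (γ z)` is not zero, it vanishes on the tangent line of the curve, and its expression
`η` in every chart of the atlas is a holomorphic function of `z`. -/
structure IsConormalFrame (γ : ℂ → X) (θ : Covec X) : Prop where
  ne : ∀ z, θ (γ z) ≠ 0
  conormal : ∀ z v, θ (γ z) (mfderiv 𝓘(ℂ) 𝓘(ℂ, ℂ × ℂ) γ z v) = 0
  holo : ∀ e ∈ atlas (ℂ × ℂ) X, ∃ η : ℂ → (ℂ × ℂ →L[ℂ] ℂ),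
    DifferentiableOn ℂ η (γ ⁻¹' e.source) ∧ ∀ z, γ z ∈ e.source →
      ∀ v, θ (γ z) v = η z (mfderiv 𝓘(ℂ, ℂ × ℂ) 𝓘(ℂ, ℂ × ℂ) e (γ z) v)

/-- The normal bundle of `φ : ℙ¹ → X` has degree `d`: the conormal bundle has holomorphic frames
`θ₀` over `ℂ` and `θ₁` over the coordinate plane `w = 1/z` with `θ₀ = z ^ d θ₁` on the overlap
(so `θ₀` extends as a meromorphic section of order `-d` at infinity). -/
def NormalDegree (φ : P1Map X) (d : ℤ) : Prop :=
  ∃ θ₀ θ₁ : Covec X, IsConormalFrame φ.f₀ θ₀ ∧ IsConormalFrame φ.f₁ θ₁ ∧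
    ∀ z : ℂ, z ≠ 0 → θ₀ (φ.f₀ z) = z ^ d • θ₁ (φ.f₀ z)

/-- `X` is minimal: it contains no smooth rational curve of self-intersection number (degree of
the normal bundle) `-1`. -/
def IsMinimal (X : Type*) [TopologicalSpace X] [ChartedSpace (ℂ × ℂ) X] : Prop :=
  ¬ ∃ φ : P1Map X, IsEmbedded φ ∧ NormalDegree φ (-1)

end Vale.Agent.P267S72
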